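import Mathlib.MeasureTheory.Integral.Bochner.Set
import Mathlib.Analysis.SpecialFunctions.Pow.Continuity
import Mathlib.Analysis.SpecialFunctions.Log.Basic
import Mathlib.Topology.Algebra.Module.Basic
import Mathlib.MeasureTheory.Integral.IntegrableOn
import Mathlib.MeasureTheory.Constructions.BorelSpace.Basic
import Mathlib.Analysis.SpecialFunctions.Log.Deriv

/-!
# Step 10: the real variable part
-/

open scoped Topology
open MeasureTheory Set Filter

noncomputable section

namespace Vale.Agent.P272.K.AMP.ABP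

/-- Young's inequality for the pair `t log t - t`, `exp`. -/
lemma young_log {a b : ℝ} (ha : 0 ≤ a) : a * b ≤ a * Real.log a - a + Real.exp b := by
  rcases ha.eq_or_lt with h | h
  · rw [← h]; simp [(Real.exp_pos b).le]
  · have h1 := Real.add_one_le_exp (b - Real.log a)
    have h2 : Real.exp (b - Real.log a) = Real.exp b / a := by
      rw [Real.exp_sub, Real.exp_log h]
    rw [h2, le_div_iff₀ h] at h1
    linarith

lemma mul_log_le {a M : ℝ} (ha : 0 ≤ a) (haM : a ≤ M) : a * Real.log a ≤ a * Real.log M := by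
  rcases ha.eq_or_lt with h | h
  · rw [← h]; simp
  · exact mul_le_mul_of_nonneg_left (Real.log_le_log h haM) h.le

/-- from `J ≤ c J^(1/n)` to `J ≤ c^(n/(n-1))` -/
lemma le_of_le_rpow {n : ℕ} (hn : 2 ≤ n) {J c : ℝ} (hJ : 0 ≤ J) (hc : 0 ≤ c)
    (h : J ≤ c * J ^ ((1 : ℝ) / n)) : J ≤ c ^ ((n : ℝ) / (n - 1)) := by
  have hn' : (2 : ℝ) ≤ n := by exact_mod_cast hn
  rcases hJ.eq_or_lt with h0 | h0
  · rw [← h0]; positivity
  have h1 : J ^ (1 - (1 : ℝ) / n) ≤ c := by
    rw [Real.rpow_sub h0, Real.rpow_one, div_le_iff₀ (Real.rpow_pos_of_pos h0 _)]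
    exact h
  have h2 : (J ^ (1 - (1 : ℝ) / n)) ^ ((n : ℝ) / (n - 1)) = J := by
    rw [← Real.rpow_mul hJ]
    have : (1 - (1 : ℝ) / n) * ((n : ℝ) / (n - 1)) = 1 := by
      have h3 : (n : ℝ) - 1 ≠ 0 := by linarith
      field_simp
    rw [this, Real.rpow_one]
  rw [← h2]
  exact Real.rpow_le_rpow (Real.rpow_nonneg hJ _) h1 (by
    have : (0 : ℝ) < n - 1 := by linarith
    positivity)

variable {X : Type*} [TopologicalSpace X] [CompactSpace X] [MeasurableSpace X] [BorelSpace X]

lemma integrable_cont (μ : Measure X) [IsFiniteMeasure μ] {f : X → ℝ} (hf : Continuous f) :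
    Integrable f μ := by
  obtain ⟨C, hC⟩ := (isCompact_range hf).isBounded.exists_norm_le
  exact Integrable.of_bound hf.aestronglyMeasurable C (Eventually.of_forall fun x => hC _ ⟨x, rfl⟩)

/-- **Step 10, part (a)**: the bound for `J = ∫ G̃^(n/(n-1))`. -/
theorem step10a {n : ℕ} (hn : 2 ≤ n) {K α CE v₀ : ℝ} (hK : 1 ≤ K) (hα : 0 < α) (hv₀ : 0 < v₀)
    (hCE : 0 ≤ CE) :
    ∃ C : ℝ, 0 < C ∧ ∀ (μ : Measure X) [IsFiniteMeasure μ] (Gt ft u v : X → ℝ) (L Λ : ℝ),
      Continuous Gt → Continuous ft → Continuous u → Continuous v → 1 ≤ L → 0 ≤ Λ →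
      v₀ ≤ μ.real univ → (∀ x, 0 ≤ Gt x) → (∀ x, 0 ≤ ft x) → (∀ x, ft x ≤ K * L ^ 2) →
      (∫ x, ft x ∂μ ≤ K) →
      (∫ x, Gt x ^ ((n : ℝ) / (n - 1)) ∂μ = ∫ x, ft x * u x ∂μ) →
      (∀ x, u x ≤ Λ / n * (v x + n)) → (∀ x, 0 ≤ v x) →
      (Λ ^ n * μ.real univ = 4 * Real.exp n * ∫ x, Gt x ^ ((n : ℝ) / (n - 1)) ∂μ) →
      (∫ x, Real.exp (α * v x) ∂μ ≤ CE) →
      ∫ x, Gt x ^ ((n : ℝ) / (n - 1)) ∂μ ≤ C * (1 + Real.log L) ^ ((n : ℝ) / (n - 1)) := by
  have hn' : (2 : ℝ) ≤ n := by exact_mod_cast hn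
  have hn0 : (0 : ℝ) < n := by linarith
  set C1 : ℝ := α⁻¹ * (K * (Real.log K + 2) + CE) + n * K with hC1
  have hlK : 0 ≤ Real.log K := Real.log_nonneg hK
  have hC1p : 0 < C1 := by
    have : 0 ≤ α⁻¹ * (K * (Real.log K + 2) + CE) := by positivity
    have : (0 : ℝ) < n * K := by positivity
    rw [hC1]; linarith
  set C2 : ℝ := (4 * Real.exp n / v₀) ^ ((1 : ℝ) / n) * (C1 / n) with hC2
  have hC2p : 0 < C2 := by positivity
  refine ⟨C2 ^ ((n : ℝ) / (n - 1)), by positivity, ?_⟩
  intro μ _ Gt ft u v L Λ hGt hft hu hv hL hΛ hV hG0 hf0 hfL hfI hJ huv hv0 hΛJ hexp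
  set J : ℝ := ∫ x, Gt x ^ ((n : ℝ) / (n - 1)) ∂μ with hJdef
  have hJ0 : 0 ≤ J := integral_nonneg fun x => Real.rpow_nonneg (hG0 x) _
  have hlL : 0 ≤ Real.log L := Real.log_nonneg hL
  have hI0 : 0 ≤ ∫ x, ft x ∂μ := integral_nonneg hf0
  -- the Young inequality
  have hy : ∫ x, ft x * v x ∂μ ≤ α⁻¹ * (K * (Real.log K + 2 * Real.log L) + CE) := by
    have h1 : ∀ x, ft x * v x ≤ α⁻¹ * (ft x * Real.log (K * L ^ 2) + Real.exp (α * v x)) := by
      intro x
      have h2 := young_log (a := ft x) (b := α * v x) (hf0 x)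
      have h3 := mul_log_le (hf0 x) (hfL x)
      have h4 : ft x * v x = α⁻¹ * (ft x * (α * v x)) := by field_simp
      rw [h4]
      refine mul_le_mul_of_nonneg_left ?_ (inv_pos.2 hα).le
      have := hf0 x
      linarith
    have hi1 : Integrable (fun x => ft x * v x) μ := integrable_cont μ (hft.mul hv)
    have hi2 : Integrable (fun x => α⁻¹ * (ft x * Real.log (K * L ^ 2) + Real.exp (α * v x))) μ :=
      integrable_cont μ (by fun_prop)
    refine (integral_mono hi1 hi2 h1).trans ?_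
    rw [integral_const_mul, integral_add (integrable_cont μ (by fun_prop))
      (integrable_cont μ (by fun_prop)), integral_mul_const]
    refine mul_le_mul_of_nonneg_left ?_ (inv_pos.2 hα).le
    have h5 : Real.log (K * L ^ 2) = Real.log K + 2 * Real.log L := by
      rw [Real.log_mul (by positivity) (by positivity), Real.log_pow]; push_cast; ring
    rw [h5]
    have h6 : (∫ x, ft x ∂μ) * (Real.log K + 2 * Real.log L) ≤
        K * (Real.log K + 2 * Real.log L) := mul_le_mul_of_nonneg_right hfI (by positivity)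
    linarith
  have hJ1 : J ≤ Λ / n * (C1 * (1 + Real.log L)) := by
    rw [hJ]
    have h1 : ∀ x, ft x * u x ≤ Λ / n * (ft x * v x + n * ft x) := by
      intro x
      have := mul_le_mul_of_nonneg_left (huv x) (hf0 x)
      calc ft x * u x ≤ ft x * (Λ / n * (v x + n)) := this
        _ = _ := by ring
    refine (integral_mono (integrable_cont μ (hft.mul hu)) (integrable_cont μ (by fun_prop))
      h1).trans ?_
    rw [integral_const_mul, integral_add (integrable_cont μ (by fun_prop))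
      (integrable_cont μ (by fun_prop)), integral_const_mul]
    refine mul_le_mul_of_nonneg_left ?_ (by positivity)
    have h2 : (n : ℝ) * ∫ x, ft x ∂μ ≤ n * K := mul_le_mul_of_nonneg_left hfI hn0.le
    have h3 : α⁻¹ * (K * (Real.log K + 2 * Real.log L) + CE) + n * K ≤ C1 * (1 + Real.log L) := by
      rw [hC1]
      have h4 : 0 ≤ α⁻¹ * (K * Real.log K + CE) * Real.log L := by positivity
      have h5 : 0 ≤ n * K * Real.log L := by positivity
      have h6 : 0 ≤ α⁻¹ * (K * 2) := by positivity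
      nlinarith
    linarith
  -- `Λ ≤ c J^(1/n)`
  have hVp : 0 < μ.real univ := lt_of_lt_of_le hv₀ hV
  have hΛ1 : Λ ≤ (4 * Real.exp n / v₀) ^ ((1 : ℝ) / n) * J ^ ((1 : ℝ) / n) := by
    have h1 : Λ ^ n ≤ 4 * Real.exp n / v₀ * J := by
      have h2 : Λ ^ n = 4 * Real.exp n * J / μ.real univ := by
        rw [eq_div_iff hVp.ne']; exact hΛJ
      rw [h2]
      calc 4 * Real.exp n * J / μ.real univ ≤ 4 * Real.exp n * J / v₀ := by
            apply div_le_div_of_nonneg_left (by positivity) hv₀ hV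
        _ = _ := by ring
    rw [← Real.mul_rpow (by positivity) hJ0]
    calc Λ = (Λ ^ n) ^ ((1 : ℝ) / n) := by
          rw [one_div, Real.pow_rpow_inv_natCast hΛ (by omega)]
      _ ≤ _ := Real.rpow_le_rpow (pow_nonneg hΛ _) h1 (by positivity)
  have hJ2 : J ≤ (C2 * (1 + Real.log L)) * J ^ ((1 : ℝ) / n) := by
    have hp : 0 ≤ C1 * (1 + Real.log L) / n := by positivity
    have := mul_le_mul_of_nonneg_right hΛ1 hp
    calc J ≤ Λ * (C1 * (1 + Real.log L) / n) := by
          refine hJ1.trans (le_of_eq ?_); ring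
      _ ≤ _ := this
      _ = _ := by rw [hC2]; ring
  have h := le_of_le_rpow hn hJ0 (by positivity) hJ2
  rwa [Real.mul_rpow hC2p.le (by positivity)] at h

/-- part (b): from the truncation to `G` -/
theorem step10b {p : ℝ} (hp : 0 ≤ p) (μ : Measure X) [IsFiniteMeasure μ] {G : X → ℝ}
    (hG : Continuous G) (hG1 : ∀ x, 1 ≤ G x) {L : ℝ} (hL : 0 < L) :
    ∫ x in {x | G x ≤ L}, G x ^ p ∂μ ≤ 2 ^ p * ∫ x, (L * G x / (L + G x)) ^ p ∂μ := by
  have hG0 : ∀ x, 0 < G x := fun x => lt_of_lt_of_le one_pos (hG1 x)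
  have hc1 : Continuous fun x => G x ^ p := hG.rpow_const fun x => Or.inl (hG0 x).ne'
  have hc2 : Continuous fun x => (L * G x / (L + G x)) ^ p := by
    refine Continuous.rpow_const ?_ fun x => Or.inr hp
    exact (continuous_const.mul hG).div (continuous_const.add hG) fun x => by
      have := hG0 x; positivity
  have hm : MeasurableSet {x | G x ≤ L} := (isClosed_le hG continuous_const).measurableSet
  have h1 : ∫ x in {x | G x ≤ L}, G x ^ p ∂μ ≤
      ∫ x in {x | G x ≤ L}, 2 ^ p * (L * G x / (L + G x)) ^ p ∂μ := by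
    refine setIntegral_mono_on (integrable_cont μ hc1).integrableOn
      (integrable_cont μ (continuous_const.mul hc2)).integrableOn hm fun x hx => ?_
    have hx' : G x ≤ L := hx
    have h0 := hG0 x
    rw [← Real.mul_rpow (by norm_num) (by positivity)]
    refine Real.rpow_le_rpow h0.le ?_ hp
    rw [← mul_div_assoc, le_div_iff₀ (by positivity)]
    nlinarith
  refine h1.trans ?_
  rw [integral_const_mul]
  refine mul_le_mul_of_nonneg_left ?_ (by positivity)
  refine setIntegral_le_integral (integrable_cont μ hc2) (Eventually.of_forall fun x => ?_)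
  have := hG0 x
  exact Real.rpow_nonneg (by positivity) _

end Vale.Agent.P272.K.AMP.ABP
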