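import Vale.Agent.P272.K.AMP.ABP.Meas
import Mathlib.Analysis.SpecialFunctions.Pow.Asymptotics
import Mathlib.Analysis.SpecificLimits.Basic

/-!
# Step 10: the dyadic tail
-/

open scoped Topology
open MeasureTheory Set Filter

noncomputable section

namespace Vale.Agent.P272.K.AMP.ABP

lemma log_pow_le {p a : ℝ} (hp : 0 < p) (ha : 0 < a) :
    ∃ D : ℝ, 0 < D ∧ ∀ y : ℝ, 1 ≤ y → (1 + Real.log y) ^ p ≤ D * y ^ a := by
  set ε : ℝ := a / p with hε
  have hε0 : 0 < ε := by positivity
  refine ⟨(1 + 1 / ε) ^ p, by positivity, fun y hy => ?_⟩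
  have hy0 : 0 < y := by linarith
  have h1 : Real.log y ≤ y ^ ε / ε := Real.log_le_rpow_div hy0.le hε0
  have h2 : 1 ≤ y ^ ε := Real.one_le_rpow hy hε0.le
  have h3 : 0 ≤ Real.log y := Real.log_nonneg hy
  have h4 : 1 + Real.log y ≤ (1 + 1 / ε) * y ^ ε := by
    have : (1 + 1 / ε) * y ^ ε = y ^ ε + y ^ ε / ε := by ring
    rw [this]; linarith
  calc (1 + Real.log y) ^ p ≤ ((1 + 1 / ε) * y ^ ε) ^ p :=
        Real.rpow_le_rpow (by linarith) h4 hp.le
    _ = (1 + 1 / ε) ^ p * (y ^ ε) ^ p := Real.mul_rpow (by positivity) (by positivity)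
    _ = (1 + 1 / ε) ^ p * y ^ a := by
        rw [← Real.rpow_mul hy0.le]
        congr 2
        rw [hε]; field_simp

variable {X : Type*} [TopologicalSpace X] [CompactSpace X] [MeasurableSpace X] [BorelSpace X]

/-- part (c): the tail `∫_{G > L} G`. -/
theorem step10c {n : ℕ} (hn : 2 ≤ n) {C : ℝ} (hC : 0 < C) :
    ∃ C' : ℝ, 0 < C' ∧ ∀ (μ : Measure X) [IsFiniteMeasure μ] (G : X → ℝ),
      Continuous G → (∀ x, 1 ≤ G x) →
      (∀ L : ℝ, 1 ≤ L → ∫ x in {x | G x ≤ L}, G x ^ ((n : ℝ) / (n - 1)) ∂μ ≤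
        C * (1 + Real.log L) ^ ((n : ℝ) / (n - 1))) →
      ∀ L : ℝ, 1 ≤ L → ∫ x in {x | L < G x}, G x ∂μ ≤ C' * L ^ (-(1 / (2 * ((n : ℝ) - 1)))) := by
  have hn' : (2 : ℝ) ≤ n := by exact_mod_cast hn
  have hn1 : (0 : ℝ) < n - 1 := by linarith
  set a : ℝ := 1 / (2 * ((n : ℝ) - 1)) with ha
  have ha0 : 0 < a := by positivity
  set p : ℝ := (n : ℝ) / (n - 1) with hp
  have hp0 : 0 < p := by positivity
  have hpa : p = 1 + 2 * a := by rw [hp, ha]; field_simp; ring
  obtain ⟨D, hD, hDy⟩ := log_pow_le hp0 ha0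
  have hq : (2 : ℝ) ^ (-a) < 1 := Real.rpow_lt_one_of_one_lt_of_neg (by norm_num) (by linarith)
  have hq0 : 0 < (2 : ℝ) ^ (-a) := by positivity
  set c : ℝ := C * D * 2 ^ a with hc
  have hc0 : 0 < c := by positivity
  refine ⟨c * (1 - 2 ^ (-a))⁻¹, mul_pos hc0 (inv_pos.2 (by linarith)), ?_⟩
  intro μ _ G hG hG1 hb L hL
  have hL0 : 0 < L := by linarith
  have hG0 : ∀ x, 0 < G x := fun x => lt_of_lt_of_le one_pos (hG1 x)
  have hcp : Continuous fun x => G x ^ p := hG.rpow_const fun x => Or.inl (hG0 x).ne'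
  -- one dyadic step
  have hstep : ∀ y : ℝ, 1 ≤ y → ∫ x in {x | y < G x ∧ G x ≤ 2 * y}, G x ∂μ ≤ c * y ^ (-a) := by
    intro y hy
    have hy0 : 0 < y := by linarith
    have hm : MeasurableSet {x | y < G x ∧ G x ≤ 2 * y} :=
      ((isOpen_lt continuous_const hG).measurableSet).inter
        (isClosed_le hG continuous_const).measurableSet
    have h1 : ∫ x in {x | y < G x ∧ G x ≤ 2 * y}, G x ∂μ ≤
        ∫ x in {x | y < G x ∧ G x ≤ 2 * y}, y ^ (-(2 * a)) * G x ^ p ∂μ := by
      refine setIntegral_mono_on (integrable_cont μ hG).integrableOn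
        (integrable_cont μ (continuous_const.mul hcp)).integrableOn hm fun x hx => ?_
      have hx1 : y < G x := hx.1
      have h0 := hG0 x
      rw [hpa, Real.rpow_add h0, Real.rpow_one]
      have h2 : y ^ (2 * a) ≤ G x ^ (2 * a) := Real.rpow_le_rpow hy0.le hx1.le (by positivity)
      have h3 : 1 ≤ y ^ (-(2 * a)) * G x ^ (2 * a) := by
        rw [Real.rpow_neg hy0.le, ← div_eq_inv_mul, le_div_iff₀ (by positivity)]
        linarith
      calc G x = G x * 1 := (mul_one _).symm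
        _ ≤ G x * (y ^ (-(2 * a)) * G x ^ (2 * a)) := mul_le_mul_of_nonneg_left h3 h0.le
        _ = _ := by ring
    have h2 : ∫ x in {x | y < G x ∧ G x ≤ 2 * y}, y ^ (-(2 * a)) * G x ^ p ∂μ ≤
        y ^ (-(2 * a)) * ∫ x in {x | G x ≤ 2 * y}, G x ^ p ∂μ := by
      rw [integral_const_mul]
      refine mul_le_mul_of_nonneg_left ?_ (by positivity)
      refine setIntegral_mono_set (integrable_cont μ hcp).integrableOn
        (Eventually.of_forall fun x => Real.rpow_nonneg (hG0 x).le _)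
        (Eventually.of_forall fun x hx => hx.2)
    have h3 := hb (2 * y) (by linarith)
    have h4 := hDy (2 * y) (by linarith)
    calc ∫ x in {x | y < G x ∧ G x ≤ 2 * y}, G x ∂μ
        ≤ y ^ (-(2 * a)) * ∫ x in {x | G x ≤ 2 * y}, G x ^ p ∂μ := h1.trans h2
      _ ≤ y ^ (-(2 * a)) * (C * (D * (2 * y) ^ a)) :=
          mul_le_mul_of_nonneg_left (h3.trans (mul_le_mul_of_nonneg_left h4 hC.le))
            (by positivity)
      _ = c * y ^ (-a) := by
          rw [Real.mul_rpow (by norm_num) hy0.le, hc]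
          have : y ^ (-a) = y ^ (-(2 * a)) * y ^ a := by
            rw [← Real.rpow_add hy0]; congr 1; ring
          rw [this]; ring
  -- the induction
  have hind : ∀ N : ℕ, ∫ x in {x | L < G x ∧ G x ≤ 2 ^ N * L}, G x ∂μ ≤
      c * L ^ (-a) * ∑ j ∈ Finset.range N, ((2 : ℝ) ^ (-a)) ^ j := by
    intro N
    induction N with
    | zero =>
      have : {x | L < G x ∧ G x ≤ 2 ^ 0 * L} = ∅ := by
        ext x; simp only [Set.mem_ofPred_eq, mem_empty_iff_false, iff_false, not_and, not_le, pow_zero,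
          one_mul]; exact fun h => h
      rw [this]; simp
    | succ N ih =>
      set y : ℝ := 2 ^ N * L with hy
      have hy1 : 1 ≤ y := by
        have : (1 : ℝ) ≤ 2 ^ N := one_le_pow₀ (by norm_num)
        calc (1 : ℝ) = 1 * 1 := by ring
          _ ≤ 2 ^ N * L := mul_le_mul this hL (by norm_num) (by positivity)
      have hset : {x | L < G x ∧ G x ≤ 2 ^ (N + 1) * L} =
          {x | L < G x ∧ G x ≤ y} ∪ {x | y < G x ∧ G x ≤ 2 * y} := by
        have hLy : L ≤ y := by
          have : (1 : ℝ) ≤ 2 ^ N := one_le_pow₀ (by norm_num)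
          rw [hy]; nlinarith
        have h2y : 2 ^ (N + 1) * L = 2 * y := by rw [hy]; ring
        ext x
        simp only [Set.mem_ofPred_eq, mem_union, h2y]
        constructor
        · rintro ⟨h1, h2⟩
          rcases le_or_gt (G x) y with h | h
          · exact Or.inl ⟨h1, h⟩
          · exact Or.inr ⟨h, h2⟩
        · rintro (⟨h1, h2⟩ | ⟨h1, h2⟩)
          · exact ⟨h1, by linarith⟩
          · exact ⟨by linarith, h2⟩
      have hdisj : Disjoint {x | L < G x ∧ G x ≤ y} {x | y < G x ∧ G x ≤ 2 * y} := by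
        rw [Set.disjoint_left]
        rintro x ⟨_, h1⟩ ⟨h2, _⟩
        exact absurd h2 (not_lt.2 h1)
      have hm : MeasurableSet {x | y < G x ∧ G x ≤ 2 * y} :=
        ((isOpen_lt continuous_const hG).measurableSet).inter
          (isClosed_le hG continuous_const).measurableSet
      rw [hset, setIntegral_union hdisj hm (integrable_cont μ hG).integrableOn
        (integrable_cont μ hG).integrableOn, Finset.sum_range_succ, mul_add]
      refine add_le_add ih ((hstep y hy1).trans (le_of_eq ?_))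
      rw [hy, Real.mul_rpow (by positivity) hL0.le, ← Real.rpow_natCast, ← Real.rpow_natCast,
        ← Real.rpow_mul (by norm_num), ← Real.rpow_mul (by norm_num)]
      have : (N : ℝ) * -a = -a * N := by ring
      rw [this]; ring
  -- conclusion
  obtain ⟨M, hM⟩ := (isCompact_range hG).isBounded.exists_norm_le
  obtain ⟨N, hN⟩ := pow_unbounded_of_one_lt M (one_lt_two (α := ℝ))
  have hset : {x | L < G x} = {x | L < G x ∧ G x ≤ 2 ^ N * L} := by
    ext x
    simp only [Set.mem_ofPred_eq]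
    refine ⟨fun h => ⟨h, ?_⟩, fun h => h.1⟩
    have h1 := hM _ ⟨x, rfl⟩
    rw [Real.norm_eq_abs] at h1
    have h2 := (le_abs_self (G x)).trans h1
    have h3 : (2 : ℝ) ^ N ≤ 2 ^ N * L := le_mul_of_one_le_right (by positivity) hL
    linarith
  rw [hset]
  refine (hind N).trans ?_
  have hsum : ∑ j ∈ Finset.range N, ((2 : ℝ) ^ (-a)) ^ j ≤ (1 - 2 ^ (-a))⁻¹ := by
    have := (summable_geometric_of_lt_one hq0.le hq).sum_le_tsum (Finset.range N)
      (fun j _ => by positivity)
    rwa [tsum_geometric_of_lt_one hq0.le hq] at this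
  have := mul_le_mul_of_nonneg_left hsum (show 0 ≤ c * L ^ (-a) by positivity)
  calc _ ≤ c * L ^ (-a) * (1 - 2 ^ (-a))⁻¹ := this
    _ = _ := by ring

end Vale.Agent.P272.K.AMP.ABP
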