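import Vale.Agent.P272.K.AMP.ABP.Step8
import Vale.Agent.P272.K.AMP.ABP.Meas
import Vale.Agent.P272.K.AMP.ABP.Tail
import Vale.Agent.P272.K.AMP.Calc
import Vale.Agent.P272.K.AMP.Green
import Vale.Agent.P272.K.AMP.LinSolve

/-!
# Step 10: uniform integrability of `G`
-/

open scoped Manifold ContDiff ComplexOrder Topology
open Complex Filter Set MeasureTheory

set_option linter.unusedSectionVars false
set_option linter.style.haveILetI false

noncomputable section

namespace Vale.Agent.P272.K.AMP.ABP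

/-- the truncation `κ(s) = L s / (L + s)` -/
def kap (L s : ℝ) : ℝ := L * s / (L + s)

lemma kap_hasDerivAt {L s : ℝ} (h : L + s ≠ 0) : HasDerivAt (kap L) (L ^ 2 / (L + s) ^ 2) s := by
  have h1 : HasDerivAt (fun s => L * s) L s := by simpa using (hasDerivAt_id s).const_mul L
  have h2 : HasDerivAt (fun s => L + s) 1 s := by simpa using (hasDerivAt_id s).const_add L
  have h3 := h1.div h2 h
  refine (h3.congr_deriv ?_)
  field_simp
  ring

lemma kap_deriv_hasDerivAt {L s : ℝ} (h : L + s ≠ 0) :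
    HasDerivAt (fun s => L ^ 2 / (L + s) ^ 2) (-(2 * L ^ 2) / (L + s) ^ 3) s := by
  have h2 : HasDerivAt (fun s => L + s) 1 s := by simpa using (hasDerivAt_id s).const_add L
  have h3 := (hasDerivAt_const s (L ^ 2)).div (h2.pow 2) (pow_ne_zero 2 h)
  refine (h3.congr_deriv ?_)
  simp only [Pi.pow_apply]
  field_simp
  ring

lemma kap_deriv {L s : ℝ} (hL : 0 < L) (hs : 0 < s) : deriv (kap L) s = L ^ 2 / (L + s) ^ 2 :=
  (kap_hasDerivAt (by positivity)).deriv

lemma kap_deriv2 {L s : ℝ} (hL : 0 < L) (hs : 0 < s) :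
    deriv (deriv (kap L)) s = -(2 * L ^ 2) / (L + s) ^ 3 := by
  have h1 : deriv (kap L) =ᶠ[𝓝 s] fun s => L ^ 2 / (L + s) ^ 2 := by
    filter_upwards [lt_mem_nhds hs] with t ht
    exact kap_deriv hL ht
  rw [h1.deriv_eq]
  exact (kap_deriv_hasDerivAt (by positivity)).deriv

lemma kap_contDiffAt {L s : ℝ} (hL : 0 < L) (hs : 0 < s) {m : WithTop ℕ∞} :
    ContDiffAt ℝ m (kap L) s := by
  unfold kap
  exact ContDiffAt.div (by fun_prop) (by fun_prop) (by positivity)

/-- the pointwise bounds of the truncated right hand side -/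
lemma ft_bounds {p q K L s f d : ℝ} (hK : 1 ≤ K) (hL : 1 ≤ L) (hs : 1 ≤ s) (hp : p ≤ 2)
    (hq : q ≤ 3) (hf0 : 0 ≤ f) (hf : f ≤ K * s ^ p) (hd0 : 0 ≤ d) (hd : d ≤ K * s ^ q) :
    0 ≤ kap L s - (L ^ 2 / (L + s) ^ 2 * (s - (1 + f)) + -(2 * L ^ 2) / (L + s) ^ 3 * d) ∧
    kap L s - (L ^ 2 / (L + s) ^ 2 * (s - (1 + f)) + -(2 * L ^ 2) / (L + s) ^ 3 * d) ≤
      5 * K * L ^ 2 := by
  have hL0 : 0 < L := by linarith
  have hs0 : 0 < s := by linarith
  have h0 : 0 < L + s := by positivity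
  have e1 : kap L s - (L ^ 2 / (L + s) ^ 2 * (s - (1 + f)) + -(2 * L ^ 2) / (L + s) ^ 3 * d) =
      L * (s ^ 2 / (L + s) ^ 2) + L ^ 2 * ((1 + f) / (L + s) ^ 2) + 2 * L ^ 2 * (d / (L + s) ^ 3) := by
    unfold kap
    field_simp
    ring
  rw [e1]
  constructor
  · positivity
  have hsp : s ^ p ≤ s ^ 2 := by
    rw [← Real.rpow_two]; exact Real.rpow_le_rpow_of_exponent_le hs hp
  have hsq : s ^ q ≤ s ^ 3 := by
    rw [show (s ^ 3 : ℝ) = s ^ (3 : ℝ) by rw [← Real.rpow_natCast]; norm_num]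
    exact Real.rpow_le_rpow_of_exponent_le hs hq
  have b1 : s ^ 2 / (L + s) ^ 2 ≤ 1 := by
    rw [div_le_one (by positivity)]
    exact pow_le_pow_left₀ hs0.le (by linarith) 2
  have b2 : (1 + f) / (L + s) ^ 2 ≤ 2 * K := by
    rw [div_le_iff₀ (by positivity)]
    have h1 : s ^ 2 ≤ (L + s) ^ 2 := pow_le_pow_left₀ hs0.le (by linarith) 2
    have h2 : (1 : ℝ) ≤ s ^ 2 := one_le_pow₀ hs
    have h3 : K * s ^ p ≤ K * s ^ 2 := mul_le_mul_of_nonneg_left hsp (by linarith)
    nlinarith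
  have b3 : d / (L + s) ^ 3 ≤ K := by
    rw [div_le_iff₀ (by positivity)]
    have h1 : s ^ 3 ≤ (L + s) ^ 3 := pow_le_pow_left₀ hs0.le (by linarith) 3
    have h3 : K * s ^ q ≤ K * s ^ 3 := mul_le_mul_of_nonneg_left hsq (by linarith)
    nlinarith
  have c1 : L * (s ^ 2 / (L + s) ^ 2) ≤ K * L ^ 2 := by
    have : L * (s ^ 2 / (L + s) ^ 2) ≤ L * 1 := mul_le_mul_of_nonneg_left b1 hL0.le
    nlinarith
  have c2 : L ^ 2 * ((1 + f) / (L + s) ^ 2) ≤ L ^ 2 * (2 * K) :=
    mul_le_mul_of_nonneg_left b2 (by positivity)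
  have c3 : 2 * L ^ 2 * (d / (L + s) ^ 3) ≤ 2 * L ^ 2 * K :=
    mul_le_mul_of_nonneg_left b3 (by positivity)
  linarith

lemma kap_nonneg {L s : ℝ} (hL : 0 < L) (hs : 0 < s) : 0 < kap L s := by
  unfold kap; positivity

lemma kap_le {L s : ℝ} (hL : 0 < L) (hs : 0 < s) : kap L s ≤ s := by
  unfold kap
  rw [div_le_iff₀ (by positivity)]
  nlinarith [mul_pos hs hs]

variable {n : ℕ} {X : Type} [TopologicalSpace X] [ChartedSpace (Cm n) X]
  [IsManifold 𝓘(ℂ, Cm n) ω X] [T2Space X] [CompactSpace X] [MeasurableSpace X] [BorelSpace X]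
  {g : Chart n X → Cm n → Matrix (Fin n) (Fin n) ℂ}

lemma intX_Ld_eq (hg : IsHermitian g) {u v : X → ℝ} (hu : SmoothFn (n := n) u)
    (hv : Continuous v) :
    INT.intX (fun e z => v (e.symm z) * Ld g u e z) = ∫ x, v x * lapX g u x ∂(volX g) := by
  rw [integral_volX hg (f := fun x => v x * lapX g u x)
    (hv.mul (INT.SmoothFn.continuous (smoothFn_lapX hg hu)))]
  refine INT.intX_congr fun e x hx => ?_
  have h1 := lapX_eq hg hu hx
  show v (e.symm (e x)) * Ld g u e (e x) = v (e.symm (e x)) * lapX g u (e.symm (e x)) *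
    (g e (e x)).det.re
  rw [hx.left_inv, h1]
  unfold Ld lapE hess
  ring

/-- Green's formula for the measure `volX g` -/
lemma integral_green (hg : IsKahler g) {u v : X → ℝ} (hu : SmoothFn (n := n) u)
    (hv : SmoothFn (n := n) v) :
    ∫ x, v x * lapX g u x ∂(volX g) = ∫ x, u x * lapX g v x ∂(volX g) := by
  rw [← intX_Ld_eq hg.toIsHermitian hu (INT.SmoothFn.continuous hv),
    ← intX_Ld_eq hg.toIsHermitian hv (INT.SmoothFn.continuous hu)]
  exact green hg hu hv

lemma integral_lapX (hg : IsKahler g) {u : X → ℝ} (hu : SmoothFn (n := n) u) :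
    ∫ x, lapX g u x ∂(volX g) = 0 := by
  have h := integral_green hg hu (smoothFn_const (n := n) (X := X) 1)
  have hc : ∀ x : X, lapX g (fun _ => (1 : ℝ)) x = 0 := fun x => by
    first
    | exact lapX_const' 1 x
    | exact lapX_const 1 x
  simp only [one_mul, hc, mul_zero, integral_zero] at h
  exact h

lemma int_add (μ : Measure X) [IsFiniteMeasure μ] {a b : X → ℝ} (ha : Continuous a)
    (hb : Continuous b) : ∫ x, (a x + b x) ∂μ = ∫ x, a x ∂μ + ∫ x, b x ∂μ :=
  integral_add (integrable_cont μ ha) (integrable_cont μ hb)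

lemma int_sub (μ : Measure X) [IsFiniteMeasure μ] {a b : X → ℝ} (ha : Continuous a)
    (hb : Continuous b) : ∫ x, (a x - b x) ∂μ = ∫ x, a x ∂μ - ∫ x, b x ∂μ :=
  integral_sub (integrable_cont μ ha) (integrable_cont μ hb)

/-- The hypothesis on the metric used in Step 10 (output of Step 9). -/
def ExpG (g : Chart n X → Cm n → Matrix (Fin n) (Fin n) ℂ) (α CE : ℝ) : Prop :=
  ∀ ψ : X → ℝ, SmoothFn (n := n) ψ → (∀ e x, At e x → (addH g ψ e (e x)).PosDef) →
    (∀ x, ψ x ≤ 0) → 3 / 4 * (volX g).real univ ≤ ∫ x, Real.exp (ψ x) ∂(volX g) →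
    ∫ x, Real.exp (-(α * ψ x)) ∂(volX g) ≤ CE

/-- The hypotheses on `G` used in Step 10 (output of Step 1). -/
structure GData (g : Chart n X → Cm n → Matrix (Fin n) (Fin n) ℂ) (G f₀ : X → ℝ) (K : ℝ) :
    Prop where
  smooth : SmoothFn (n := n) G
  smooth₀ : SmoothFn (n := n) f₀
  one_le : ∀ x, 1 ≤ G x
  nonneg : ∀ x, 0 ≤ f₀ x
  eq : ∀ x, G x - lapX g G x = 1 + f₀ x
  le : ∀ x, f₀ x ≤ K * G x ^ ((n : ℝ) / (n - 1))
  grad : ∀ x, gradX g G G x ≤ K * G x ^ (2 + 1 / ((n : ℝ) - 1))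
  mass : ∫ x, f₀ x ∂(volX g) ≤ K

/-- the bound for the truncated functions -/
theorem kap_bound [Nonempty X] (hn : 2 ≤ n) (hAY : AubinYau n X) {K α CE v₀ : ℝ} (hK : 1 ≤ K)
    (hα : 0 < α) (hv₀ : 0 < v₀) :
    ∃ C : ℝ, 0 < C ∧ ∀ (g : Chart n X → Cm n → Matrix (Fin n) (Fin n) ℂ), IsKahler g →
      ∀ G f₀ : X → ℝ, GData g G f₀ K → v₀ ≤ (volX g).real univ → (volX g).real univ ≤ K →
      ExpG g α CE → ∀ L : ℝ, 1 ≤ L →
        ∫ x, kap L (G x) ^ ((n : ℝ) / (n - 1)) ∂(volX g) ≤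
          C * (1 + Real.log L) ^ ((n : ℝ) / (n - 1)) := by
  have hn' : (2 : ℝ) ≤ n := by exact_mod_cast hn
  have hn1 : (0 : ℝ) < n - 1 := by linarith
  have hn0 : 0 < n := by omega
  obtain ⟨C, hC, hCb⟩ := step10a (X := X) hn (K := 5 * K) (α := α) (CE := max CE 0) (v₀ := v₀)
    (by linarith) hα hv₀ (le_max_right _ _)
  refine ⟨C, hC, ?_⟩
  intro g hg G f₀ hG hV hVK hE L hL
  have hgH := hg.toIsHermitian
  haveI := isFiniteMeasure_volX hgH
  have hL0 : 0 < L := by linarith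
  have hG0 : ∀ x, 0 < G x := fun x => lt_of_lt_of_le one_pos (hG.one_le x)
  have hcG := INT.SmoothFn.continuous hG.smooth
  -- the truncated function
  have hGt : SmoothFn (n := n) fun x => kap L (G x) :=
    sm_comp (φ := kap L) (fun x => kap_contDiffAt hL0 (hG0 x)) hG.smooth
  have hGt0 : ∀ x, 0 < kap L (G x) := fun x => kap_nonneg hL0 (hG0 x)
  have hcGt := INT.SmoothFn.continuous hGt
  set ft : X → ℝ := fun x => kap L (G x) - lapX g (fun x => kap L (G x)) x with hft
  have hfts : SmoothFn (n := n) ft := sm_sub hGt (smoothFn_lapX hgH hGt)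
  have hcft := INT.SmoothFn.continuous hfts
  have hfte : ∀ x, ft x = kap L (G x) - (L ^ 2 / (L + G x) ^ 2 * (G x - (1 + f₀ x)) +
      -(2 * L ^ 2) / (L + G x) ^ 3 * gradX g G G x) := by
    intro x
    have h1 : lapX g (fun x => kap L (G x)) x = deriv (kap L) (G x) * lapX g G x +
        deriv (deriv (kap L)) (G x) * gradX g G G x := by
      first
      | exact lapX_comp' (φ := kap L) (kap_contDiffAt hL0 (hG0 x)) hG.smooth
      | exact lapX_comp (φ := kap L) (kap_contDiffAt hL0 (hG0 x)) hG.smooth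
    have h2 : lapX g G x = G x - (1 + f₀ x) := by have := hG.eq x; linarith
    simp only [hft]
    rw [h1, kap_deriv hL0 (hG0 x), kap_deriv2 hL0 (hG0 x), h2]
  have hb : ∀ x, 0 ≤ ft x ∧ ft x ≤ 5 * K * L ^ 2 := by
    intro x
    rw [hfte x]
    refine ft_bounds hK hL (hG.one_le x) ?_ ?_ (hG.nonneg x) (hG.le x)
      (gradX_self_nonneg hgH.posDef G x) (hG.grad x)
    · rw [div_le_iff₀ hn1]; linarith
    · have : 1 / ((n : ℝ) - 1) ≤ 1 := by rw [div_le_one hn1]; linarith
      linarith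
  -- the mass of `ft`
  have hmass : ∫ x, ft x ∂(volX g) ≤ 5 * K := by
    have h1 : ∫ x, ft x ∂(volX g) = ∫ x, kap L (G x) ∂(volX g) := by
      simp only [hft]
      rw [integral_sub (integrable_cont _ hcGt)
        (integrable_cont _ (INT.SmoothFn.continuous (smoothFn_lapX hgH hGt))),
        integral_lapX hg hGt, sub_zero]
    have h2 : ∫ x, kap L (G x) ∂(volX g) ≤ ∫ x, G x ∂(volX g) :=
      integral_mono (integrable_cont _ hcGt) (integrable_cont _ hcG) fun x =>
        kap_le hL0 (hG0 x)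
    have h3 : ∫ x, G x ∂(volX g) = (volX g).real univ + ∫ x, f₀ x ∂(volX g) := by
      have h4 : ∀ x, G x = (1 + f₀ x) + lapX g G x := fun x => by have := hG.eq x; linarith
      have h5 : ∫ x, G x ∂(volX g) = ∫ x, ((1 + f₀ x) + lapX g G x) ∂(volX g) :=
        integral_congr_ae (Eventually.of_forall h4)
      have hc0 := INT.SmoothFn.continuous hG.smooth₀
      have hc1 := INT.SmoothFn.continuous (smoothFn_lapX hgH hG.smooth)
      rw [h5, int_add (a := fun x => 1 + f₀ x) (volX g) (continuous_const.add hc0) hc1,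
        integral_lapX hg hG.smooth, int_add (a := fun _ => (1 : ℝ)) (volX g) continuous_const hc0]
      simp
    have := hG.mass
    linarith
  -- the linear equation
  set f : X → ℝ := fun x => kap L (G x) ^ (1 / ((n : ℝ) - 1)) with hf
  have hfs : SmoothFn (n := n) f := sm_rpow hGt hGt0 _
  have hf0 : ∀ x, 0 < f x := fun x => Real.rpow_pos_of_pos (hGt0 x) _
  obtain ⟨u, hu, hue⟩ := exists_solve hgH hfs
  have hcu := INT.SmoothFn.continuous hu
  set J : ℝ := ∫ x, kap L (G x) ^ ((n : ℝ) / (n - 1)) ∂(volX g) with hJ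
  have hVp : 0 < (volX g).real univ := lt_of_lt_of_le hv₀ hV
  have hcp : Continuous fun x => kap L (G x) ^ ((n : ℝ) / (n - 1)) :=
    hcGt.rpow_const fun x => Or.inl (hGt0 x).ne'
  have hJp : 0 < J := by
    obtain ⟨x0, hx0⟩ := hcp.exists_forall_le_of_hasCompactSupport
      (HasCompactSupport.of_compactSpace _)
    have h1 : 0 < kap L (G x0) ^ ((n : ℝ) / (n - 1)) := Real.rpow_pos_of_pos (hGt0 x0) _
    have h2 : (volX g).real univ * kap L (G x0) ^ ((n : ℝ) / (n - 1)) ≤ J := by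
      have h3 : ∫ _x : X, kap L (G x0) ^ ((n : ℝ) / (n - 1)) ∂(volX g) ≤ J :=
        integral_mono (integrable_cont _ continuous_const) (integrable_cont _ hcp) hx0
      rwa [integral_const, smul_eq_mul] at h3
    exact lt_of_lt_of_le (mul_pos hVp h1) h2
  set Λ : ℝ := (4 * Real.exp n * J / (volX g).real univ) ^ ((1 : ℝ) / n) with hΛ
  have hΛ0 : 0 < Λ := Real.rpow_pos_of_pos (by positivity) _
  have hΛn : Λ ^ n = 4 * Real.exp n * J / (volX g).real univ := by
    rw [hΛ, one_div, Real.rpow_inv_natCast_pow (by positivity) hn0.ne']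
  obtain ⟨ψ, hψ, hpos, hψ0, hub, hmas⟩ := abp8 hn0 hAY hg hfs (fun x => (hf0 x).le) hu hue hΛ0
  have hcψ := INT.SmoothFn.continuous hψ
  -- the mass of `e^ψ`
  have hfn : ∀ x, f x ^ n = kap L (G x) ^ ((n : ℝ) / (n - 1)) := by
    intro x
    simp only [hf]
    rw [← Real.rpow_natCast, ← Real.rpow_mul (hGt0 x).le]
    congr 1; field_simp
  have hint : 3 / 4 * (volX g).real univ ≤ ∫ x, Real.exp (ψ x) ∂(volX g) := by
    have hcc : Continuous fun x => Real.exp (ψ x) + Real.exp n * (f x / Λ) ^ n := by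
      have := INT.SmoothFn.continuous hfs
      fun_prop
    rw [← volX_real_univ hgH, ← integral_volX hgH hcc, integral_add
      (integrable_cont _ (by fun_prop)) (integrable_cont _ (by
        have := INT.SmoothFn.continuous hfs
        fun_prop)), integral_const_mul] at hmas
    have h1 : ∫ x, (f x / Λ) ^ n ∂(volX g) = J / Λ ^ n := by
      have : ∀ x, (f x / Λ) ^ n = kap L (G x) ^ ((n : ℝ) / (n - 1)) / Λ ^ n := fun x => by
        rw [div_pow, hfn]
      simp only [this]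
      rw [integral_div]
    rw [h1, hΛn] at hmas
    have h2 : Real.exp n * (J / (4 * Real.exp n * J / (volX g).real univ)) =
        1 / 4 * (volX g).real univ := by
      have := Real.exp_pos (n : ℝ)
      field_simp
    rw [h2] at hmas
    linarith
  have hexp := hE ψ hψ hpos hψ0 hint
  -- `J = ∫ ft u`
  have hJu : J = ∫ x, ft x * u x ∂(volX g) := by
    have h1 : ∫ x, ft x * u x ∂(volX g) =
        ∫ x, kap L (G x) * u x ∂(volX g) - ∫ x, u x * lapX g (fun x => kap L (G x)) x ∂(volX g) := by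
      rw [← int_sub (a := fun x => kap L (G x) * u x)
        (b := fun x => u x * lapX g (fun x => kap L (G x)) x) (volX g) (hcGt.mul hcu)
        (hcu.mul (INT.SmoothFn.continuous (smoothFn_lapX hgH hGt)))]
      refine integral_congr_ae (Eventually.of_forall fun x => ?_)
      simp only [hft]; ring
    have h2 := integral_green hg hGt hu
    rw [h1, h2, ← int_sub (a := fun x => kap L (G x) * u x)
        (b := fun x => kap L (G x) * lapX g u x) (volX g) (hcGt.mul hcu) (hcGt.mul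
        (INT.SmoothFn.continuous (smoothFn_lapX hgH hu)))]
    rw [hJ]
    refine integral_congr_ae (Eventually.of_forall fun x => ?_)
    show _ = _
    have h3 : kap L (G x) * u x - kap L (G x) * lapX g u x = kap L (G x) * f x := by
      rw [← hue x]; ring
    simp only
    rw [h3]
    simp only [hf]
    have h4 : kap L (G x) * kap L (G x) ^ (1 / ((n : ℝ) - 1)) =
        kap L (G x) ^ (1 + 1 / ((n : ℝ) - 1)) := by
      rw [Real.rpow_add (hGt0 x), Real.rpow_one]
    rw [h4]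
    congr 1; field_simp; ring
  have hfin := hCb (volX g) (fun x => kap L (G x)) ft u (fun x => -ψ x) L Λ hcGt hcft hcu
    hcψ.neg hL hΛ0.le hV (fun x => (hGt0 x).le) (fun x => (hb x).1) (fun x => (hb x).2) hmass hJu
    hub (fun x => by have := hψ0 x; linarith) (by
      show Λ ^ n * _ = 4 * Real.exp n * J
      rw [hΛn]; field_simp) (by
      refine le_trans (le_of_eq ?_) (hexp.trans (le_max_left _ _))
      refine integral_congr_ae (Eventually.of_forall fun x => ?_)
      simp only; congr 1; ring)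
  exact hfin

/-- **Step 10**: uniform integrability of `G`. -/
theorem abp10 [Nonempty X] (hn : 2 ≤ n) (hAY : AubinYau n X) {K α CE v₀ : ℝ} (hK : 1 ≤ K)
    (hα : 0 < α) (hv₀ : 0 < v₀) :
    ∃ C : ℝ, 0 < C ∧ ∀ (g : Chart n X → Cm n → Matrix (Fin n) (Fin n) ℂ), IsKahler g →
      ∀ G f₀ : X → ℝ, GData g G f₀ K → v₀ ≤ (volX g).real univ → (volX g).real univ ≤ K →
      ExpG g α CE → ∀ L : ℝ, 1 ≤ L →
        (∫ x in {x | G x ≤ L}, G x ^ ((n : ℝ) / (n - 1)) ∂(volX g) ≤
          C * (1 + Real.log L) ^ ((n : ℝ) / (n - 1))) ∧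
        ∫ x in {x | L < G x}, G x ∂(volX g) ≤ C * L ^ (-(1 / (2 * ((n : ℝ) - 1)))) := by
  have hn' : (2 : ℝ) ≤ n := by exact_mod_cast hn
  have hn1 : (0 : ℝ) < n - 1 := by linarith
  obtain ⟨C, hC, hCb⟩ := kap_bound hn hAY (CE := CE) hK hα hv₀
  have hC2 : 0 < 2 ^ ((n : ℝ) / (n - 1)) * C := by positivity
  obtain ⟨C', hC', hCb'⟩ := step10c (X := X) hn hC2
  refine ⟨max (2 ^ ((n : ℝ) / (n - 1)) * C) C', lt_max_of_lt_left hC2, ?_⟩
  intro g hg G f₀ hG hV hVK hE L hL
  haveI := isFiniteMeasure_volX hg.toIsHermitian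
  have hcG := INT.SmoothFn.continuous hG.smooth
  have h1 : ∀ L : ℝ, 1 ≤ L → ∫ x in {x | G x ≤ L}, G x ^ ((n : ℝ) / (n - 1)) ∂(volX g) ≤
      2 ^ ((n : ℝ) / (n - 1)) * C * (1 + Real.log L) ^ ((n : ℝ) / (n - 1)) := by
    intro L hL
    refine (step10b (p := (n : ℝ) / (n - 1)) (by positivity) (volX g) hcG hG.one_le
      (L := L) (by linarith)).trans ?_
    rw [mul_assoc]
    exact mul_le_mul_of_nonneg_left (hCb g hg G f₀ hG hV hVK hE L hL) (by positivity)
  have hlog : 0 ≤ Real.log L := Real.log_nonneg hL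
  constructor
  · exact (h1 L hL).trans (mul_le_mul_of_nonneg_right (le_max_left _ _) (by positivity))
  · refine (hCb' (volX g) G hcG hG.one_le h1 L hL).trans
      (mul_le_mul_of_nonneg_right (le_max_right _ _) (Real.rpow_nonneg (by linarith) _))

end Vale.Agent.P272.K.AMP.ABP
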