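import Vale.Agent.P272.K.AMP.Main.Step0
import Vale.Agent.P272.K.AMP.ABP.Step10
import Vale.Agent.P272.K.AMP.H470.Stmt9

/-!
# From Step 9 (`ExpInt`) to the hypothesis `ExpG` of Step 10
-/

open scoped Manifold ContDiff ComplexOrder Topology
open Complex Filter Set MeasureTheory Vale.Agent.P272.K.AMP.Main

set_option linter.unusedSectionVars false
set_option linter.style.haveILetI false

noncomputable section

namespace Vale.Agent.P272.K.AMP.ABP

variable {n : ℕ} {X : Type} [TopologicalSpace X] [ChartedSpace (Cm n) X]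
  [IsManifold 𝓘(ℂ, Cm n) ω X]
  {w g : Chart n X → Cm n → Matrix (Fin n) (Fin n) ℂ}

/-- `log (det g / det w)` as a function on `X` -/
def pot (w g : Chart n X → Cm n → Matrix (Fin n) (Fin n) ℂ) : X → ℝ :=
  atX fun e z => Real.log (g e z).det.re - Real.log (w e z).det.re

lemma pot_change (hw : IsHermitian w) (hg : IsHermitian g) {e e' : Chart n X} {x : X}
    (hx : At e x) (hx' : At e' x) :
    Real.log (g e (e x)).det.re - Real.log (w e (e x)).det.re =
      Real.log (g e' (e' x)).det.re - Real.log (w e' (e' x)).det.re :=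
  canonical_diff (φ := fun e z => Real.log (g e z).det.re)
    (ψ := fun e z => Real.log (w e z).det.re) (isCanonical_logdet hg).change
    (isCanonical_logdet hw).change hx hx'

lemma pot_eq (hw : IsHermitian w) (hg : IsHermitian g) {e : Chart n X} {x : X} (hx : At e x) :
    pot w g x = Real.log (g e (e x)).det.re - Real.log (w e (e x)).det.re :=
  pot_change hw hg (at_chartAt x) hx

lemma pot_eventuallyEq (hw : IsHermitian w) (hg : IsHermitian g) {e : Chart n X} {x : X}
    (hx : At e x) : (fun y => pot w g (e.symm y)) =ᶠ[𝓝 (e x)]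
      fun y => Real.log (g e y).det.re - Real.log (w e y).det.re := by
  filter_upwards [hx.nhds_target] with y hy
  rw [pot_eq hw hg (At.of_target hx.1 hy), e.right_inv hy]

lemma smoothFn_pot (hw : IsHermitian w) (hg : IsHermitian g) :
    SmoothFn (n := n) (pot w g) :=
  smoothFn_atX (fun e x hx => ((isCanonical_logdet hg).smooth e x hx).sub
    ((isCanonical_logdet hw).smooth e x hx)) fun _ _ _ h h' => pot_change hw hg h h'

lemma det_eq_exp_pot (hw : IsHermitian w) (hg : IsHermitian g) {e : Chart n X} {x : X}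
    (hx : At e x) : (g e (e x)).det.re = Real.exp (pot w g x) * (w e (e x)).det.re := by
  rw [pot_eq hw hg hx, Real.exp_sub, Real.exp_log (hg.det_re_pos hx),
    Real.exp_log (hw.det_re_pos hx), div_mul_cancel₀ _ (hw.det_re_pos hx).ne']

variable [T2Space X] [CompactSpace X] [MeasurableSpace X] [BorelSpace X]

/-- change of reference metric -/
lemma integral_volX_pot (hw : IsHermitian w) (hg : IsHermitian g) {f : X → ℝ}
    (hf : Continuous f) :
    ∫ x, f x ∂(volX g) = ∫ x, f x * Real.exp (pot w g x) ∂(volX w) := by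
  have hp := INT.SmoothFn.continuous (smoothFn_pot hw hg)
  rw [integral_volX hg hf, integral_volX hw (f := fun x => f x * Real.exp (pot w g x))
    (by fun_prop)]
  refine INT.intX_congr fun e x hx => ?_
  show f (e.symm (e x)) * (g e (e x)).det.re =
    f (e.symm (e x)) * Real.exp (pot w g (e.symm (e x))) * (w e (e x)).det.re
  rw [hx.left_inv, det_eq_exp_pot hw hg hx]
  ring

/-- **Step 9 ⟹ the hypothesis of Step 10**. -/
theorem expG_of_expInt [Nonempty X] (hw : IsKahler w) (hE : ExpInt n X) {Λ v0 V1 : ℝ}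
    (hv0 : 0 < v0) :
    ∃ α : ℝ, 0 < α ∧ ∃ CE : ℝ, ∀ g : Chart n X → Cm n → Matrix (Fin n) (Fin n) ℂ,
      Ctrl w g Λ v0 V1 → ExpG g α CE := by
  have hwH := hw.toIsHermitian
  haveI := isFiniteMeasure_volX hwH
  set Vw : ℝ := (volX w).real univ with hVw
  set c0 : ℝ := 3 / 4 * v0 / (Vw + 1) with hc0
  have hVw0 : 0 ≤ Vw := measureReal_nonneg
  have hc0p : 0 < c0 := by positivity
  obtain ⟨α, hα, K, hK⟩ := hE w hwH Λ (max Λ (-Real.log c0))
  refine ⟨α, hα, Real.exp ((1 + α) * Λ) * K, ?_⟩
  intro g hg ψ hψ hpos hψ0 hmass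
  have hgH := hg.kahler.toIsHermitian
  set φ : X → ℝ := pot w g with hφ
  have hφs : SmoothFn (n := n) φ := smoothFn_pot hwH hgH
  have hcφ := INT.SmoothFn.continuous hφs
  have hcψ := INT.SmoothFn.continuous hψ
  have hφΛ : ∀ x, φ x ≤ Λ := fun x => by
    rw [hφ, pot_eq hwH hgH (at_chartAt x)]; exact hg.pot _ _ (at_chartAt x)
  have hΨ : SmoothFn (n := n) fun x => φ x + ψ x := sm_add hφs hψ
  have htwo : ∀ {f : Cm n → ℝ} {z}, ContDiffAt ℝ ∞ f z → ContDiffAt ℝ 2 f z :=
    fun h => h.of_le (by exact WithTop.coe_le_coe.2 le_top)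
  have h1 : ∀ e x, At e x →
      (addH (fun e z => (Λ : ℂ) • w e z) (fun x => φ x + ψ x) e (e x)).PosSemidef := by
    intro e x hx
    have h2 : addH (fun e z => (Λ : ℂ) • w e z) (fun x => φ x + ψ x) e (e x) =
        ((Λ : ℂ) • w e (e x) +
          cHess (fun z => Real.log (g e z).det.re - Real.log (w e z).det.re) (e x) - g e (e x)) +
        addH g ψ e (e x) := by
      unfold addH
      rw [cHess_add (htwo (hφs e x hx)) (htwo (hψ e x hx)),
        cHess_congr (pot_eventuallyEq hwH hgH hx)]
      abel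
    rw [h2]
    exact (hg.upper e x hx).add (hpos e x hx).posSemidef
  have h3 : ∃ x, -(max Λ (-Real.log c0)) ≤ φ x + ψ x := by
    by_contra hcon
    push Not at hcon
    have h4 : ∀ x, Real.exp (ψ x) * Real.exp (φ x) ≤ c0 := by
      intro x
      rw [← Real.exp_add]
      have h5 : ψ x + φ x ≤ Real.log c0 := by
        have := hcon x
        have h6 := le_max_right Λ (-Real.log c0)
        linarith
      calc Real.exp (ψ x + φ x) ≤ Real.exp (Real.log c0) := Real.exp_le_exp.2 h5
        _ = c0 := Real.exp_log hc0p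
    rw [integral_volX_pot hwH hgH (f := fun x => Real.exp (ψ x)) (by fun_prop)] at hmass
    have h5 : ∫ x, Real.exp (ψ x) * Real.exp (pot w g x) ∂(volX w) ≤ ∫ _x, c0 ∂(volX w) :=
      integral_mono (integrable_cont _ (by rw [← hφ]; fun_prop))
        (integrable_cont _ continuous_const) h4
    rw [integral_const, smul_eq_mul] at h5
    have h6 : v0 ≤ (volX g).real univ := by rw [volX_real_univ hgH]; exact hg.vol_ge
    have h7 : Vw * c0 < 3 / 4 * v0 := by
      rw [hc0, mul_div_assoc', div_lt_iff₀ (by linarith)]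
      nlinarith
    have h8 : Vw * c0 = (volX w).real univ * c0 := rfl
    linarith
  have h9 := hK (fun x => φ x + ψ x) hΨ h1 (fun x => (by
    have := hφΛ x; have := hψ0 x; linarith [le_max_left Λ (-Real.log c0)])) h3
  rw [← integral_volX hwH (f := fun x => Real.exp (-(α * (φ x + ψ x)))) (by fun_prop)] at h9
  rw [integral_volX_pot hwH hgH (f := fun x => Real.exp (-(α * ψ x))) (by fun_prop)]
  have h10 : ∫ x, Real.exp (-(α * ψ x)) * Real.exp (pot w g x) ∂(volX w) ≤
      ∫ x, Real.exp ((1 + α) * Λ) * Real.exp (-(α * (φ x + ψ x))) ∂(volX w) := by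
    refine integral_mono (integrable_cont _ (by rw [← hφ]; fun_prop))
      (integrable_cont _ (by fun_prop)) fun x => ?_
    show Real.exp (-(α * ψ x)) * Real.exp (φ x) ≤ _
    rw [← Real.exp_add, ← Real.exp_add]
    refine Real.exp_le_exp.2 ?_
    have h11 := mul_le_mul_of_nonneg_left (hφΛ x) (show (0 : ℝ) ≤ 1 + α by linarith)
    nlinarith
  refine h10.trans ?_
  rw [integral_const_mul]
  exact mul_le_mul_of_nonneg_left h9 (Real.exp_pos _).le

end Vale.Agent.P272.K.AMP.ABP
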