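import Vale.Agent.P272.K.C2.Eig
import Mathlib.Analysis.MeanInequalities

/-! The inequality between the trace and the determinant. -/

open scoped ComplexOrder Matrix

noncomputable section

namespace Vale.Agent.P272.K.AMP.ABP

open C2

variable {ι : Type*} [Fintype ι] [DecidableEq ι]

/-- `(card ι) (det K)^(1/card ι) ≤ tr K` for positive definite `K`. -/
theorem amgm_one [Nonempty ι] {K : Matrix ι ι ℂ} (hK : K.PosDef) :
    (Fintype.card ι : ℝ) * K.det.re ^ ((1 : ℝ) / Fintype.card ι) ≤ K.trace.re := by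
  have hH := hK.isHermitian
  set ev := hH.eigenvalues with hev
  have hpos : ∀ i, 0 < ev i := hK.eigenvalues_pos
  have htr : K.trace.re = ∑ i, ev i := by
    rw [hH.trace_eq_sum_eigenvalues, ← hev]
    simp
  have hdet : K.det.re = ∏ i, ev i := by
    rw [hH.det_eq_prod_eigenvalues, ← hev]
    have : (∏ i, (RCLike.ofReal (ev i) : ℂ)) = ((∏ i, ev i : ℝ) : ℂ) := by push_cast; rfl
    rw [this]
    exact Complex.ofReal_re _
  rw [htr, hdet]
  have hc : (0 : ℝ) < Fintype.card ι := by exact_mod_cast Fintype.card_pos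
  have h := Real.geom_mean_le_arith_mean_weighted Finset.univ (fun _ : ι => (1 : ℝ) / Fintype.card ι)
    ev (fun _ _ => by positivity) (by
      rw [Finset.sum_const, Finset.card_univ, nsmul_eq_mul]; field_simp) (fun i _ => (hpos i).le)
  rw [Real.finsetProd_rpow _ _ (fun i _ => (hpos i).le), ← Finset.mul_sum] at h
  have h2 := mul_le_mul_of_nonneg_left h hc.le
  refine h2.trans (le_of_eq ?_)
  field_simp

/-- `n (det H / det G)^(1/n) ≤ tr (G⁻¹ H)` -/
theorem amgm_trace_inv [Nonempty ι] {G H : Matrix ι ι ℂ} (hG : G.PosDef) (hH : H.PosDef) :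
    (Fintype.card ι : ℝ) * (H.det.re / G.det.re) ^ ((1 : ℝ) / Fintype.card ι) ≤
      (G⁻¹ * H).trace.re := by
  obtain ⟨A, hA⟩ := exists_factor hG.posSemidef
  have hdet : A.det ≠ 0 := by
    intro h
    have := hG.det_pos
    rw [hA, Matrix.det_mul, h, mul_zero] at this
    exact lt_irrefl _ this
  have hAi : IsUnit A⁻¹ := by
    rw [Matrix.isUnit_iff_isUnit_det]
    exact Matrix.isUnit_nonsing_inv_det _ (isUnit_iff_ne_zero.2 hdet)
  have hK : (A⁻¹ᴴ * H * A⁻¹).PosDef := by
    have := (Matrix.IsUnit.posDef_star_left_conjugate_iff (x := H) hAi).2 hH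
    simpa [Matrix.star_eq_conjTranspose] using this
  have h2 : (A⁻¹ᴴ * H * A⁻¹).trace = (G⁻¹ * H).trace := by
    rw [Matrix.trace_mul_comm, ← Matrix.mul_assoc, hA, Matrix.mul_inv_rev,
      Matrix.conjTranspose_nonsing_inv]
  have hdetG : G.det = (Complex.normSq A.det : ℂ) := by
    rw [hA, Matrix.det_mul, Matrix.det_conjTranspose, mul_comm, RCLike.star_def, Complex.mul_conj]
  have hns : 0 < Complex.normSq A.det := Complex.normSq_pos.2 hdet
  have h3 : (A⁻¹ᴴ * H * A⁻¹).det.re = H.det.re / G.det.re := by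
    have e : (A⁻¹ᴴ * H * A⁻¹).det = ((Complex.normSq A.det)⁻¹ : ℝ) * H.det := by
      rw [Matrix.det_mul, Matrix.det_mul, Matrix.det_conjTranspose, Matrix.det_nonsing_inv,
        Ring.inverse_eq_inv', RCLike.star_def, map_inv₀]
      have : (Complex.normSq A.det : ℂ) = A.det * (starRingEnd ℂ) A.det := (Complex.mul_conj _).symm
      push_cast
      rw [this, mul_inv]
      ring
    rw [e, Complex.re_ofReal_mul, hdetG, Complex.ofReal_re]
    field_simp
  have h4 := amgm_one hK
  rwa [h2, h3] at h4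

end Vale.Agent.P272.K.AMP.ABP
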