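import Vale.Agent.P272.K.AMP.Iface
import Vale.Agent.P272.K.AMP.Vol
import Vale.Agent.P272.K.AMP.ABP.Mat
import Vale.Agent.P272.K.Asm.Phase1
import Vale.Agent.P272.K.N.MaxP

/-!
# Step 8: a bound for solutions of `u - Δu = f` from the Aubin-Yau theorem
-/

open scoped Manifold ContDiff ComplexOrder Topology
open Complex Filter Set MeasureTheory

set_option linter.unusedSectionVars false
set_option linter.style.haveILetI false

noncomputable section

namespace Vale.Agent.P272.K.AMP.ABP


variable {n : ℕ} {X : Type} [TopologicalSpace X] [ChartedSpace (Cm n) X]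
  [IsManifold 𝓘(ℂ, Cm n) ω X]

lemma isLocalMax_symm {u : X → ℝ} {x : X} (h : ∀ y, u y ≤ u x) {e : Chart n X} (hx : At e x) :
    IsLocalMax (fun z => u (e.symm z)) (e x) := by
  refine Eventually.of_forall fun z => ?_
  show u (e.symm z) ≤ u (e.symm (e x))
  rw [hx.left_inv]; exact h _

lemma sm_two {u : X → ℝ} (hu : SmoothFn (n := n) u) {e : Chart n X} {x : X} (hx : At e x) :
    ContDiffAt ℝ 2 (fun z => u (e.symm z)) (e x) := (hu e x hx).of_le (by norm_cast)

lemma lapE_add {g : Chart n X → Cm n → Matrix (Fin n) (Fin n) ℂ} {u v : X → ℝ}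
    (hu : SmoothFn (n := n) u) (hv : SmoothFn (n := n) v) {e : Chart n X} {x : X} (hx : At e x) :
    lapE g (fun x => u x + v x) e (e x) = lapE g u e (e x) + lapE g v e (e x) := by
  unfold lapE hess
  rw [cHess_add (sm_two hu hx) (sm_two hv hx), Matrix.mul_add, Matrix.trace_add, Complex.add_re]

lemma lapE_const_mul {g : Chart n X → Cm n → Matrix (Fin n) (Fin n) ℂ} {u : X → ℝ}
    (hu : SmoothFn (n := n) u) (c : ℝ) {e : Chart n X} {x : X} (hx : At e x) :
    lapE g (fun x => c * u x) e (e x) = c * lapE g u e (e x) := by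
  unfold lapE hess
  rw [cHess_const_mul c (sm_two hu hx), Matrix.mul_smul, Matrix.trace_smul, smul_eq_mul,
    Complex.re_ofReal_mul]

/-- at a maximum the Laplacian is `≤ 0` -/
lemma lapE_nonpos_of_max {g : Chart n X → Cm n → Matrix (Fin n) (Fin n) ℂ} (hg : IsHermitian g)
    {u : X → ℝ} (hu : SmoothFn (n := n) u) {x : X} (h : ∀ y, u y ≤ u x) {e : Chart n X}
    (hx : At e x) : lapE g u e (e x) ≤ 0 := by
  have h1 := N.neg_cHess_posSemidef (sm_two hu hx) (isLocalMax_symm h hx)
  have h2 := trace_mul_nonneg_re (hg.posDef e x hx).inv.posSemidef h1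
  unfold lapE hess
  rw [Matrix.mul_neg, Matrix.trace_neg, Complex.neg_re] at h2
  linarith

/-- the trace-determinant inequality for the metrics `g` and `g + i∂∂̄ψ` -/
lemma det_le_lapE (hn : 0 < n) {g : Chart n X → Cm n → Matrix (Fin n) (Fin n) ℂ}
    (hg : IsHermitian g) {ψ : X → ℝ} {e : Chart n X} {x : X} (hx : At e x)
    (hp : (addH g ψ e (e x)).PosDef) :
    (n : ℝ) * ((addH g ψ e (e x)).det.re / (g e (e x)).det.re) ^ ((1 : ℝ) / n) ≤
      n + lapE g ψ e (e x) := by
  haveI : Nonempty (Fin n) := ⟨⟨0, hn⟩⟩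
  have h := amgm_trace_inv (hg.posDef e x hx) hp
  rw [Fintype.card_fin] at h
  refine h.trans (le_of_eq ?_)
  have hu : IsUnit (g e (e x)).det := (hg.posDef e x hx).det_pos.ne'.isUnit
  unfold addH lapE hess
  rw [Matrix.mul_add, Matrix.nonsing_inv_mul _ hu, Matrix.trace_add, Matrix.trace_one,
    Complex.add_re]
  simp

variable [T2Space X] [CompactSpace X]

theorem abp8 [Nonempty X] (hn : 0 < n) (hAY : AubinYau n X)
    {g : Chart n X → Cm n → Matrix (Fin n) (Fin n) ℂ} (hg : IsKahler g) {f u : X → ℝ}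
    (hf : SmoothFn (n := n) f) (hf0 : ∀ x, 0 ≤ f x) (hu : SmoothFn (n := n) u)
    (heq : ∀ x, u x - lapX g u x = f x) {L : ℝ} (hL : 0 < L) :
    ∃ ψ : X → ℝ, SmoothFn (n := n) ψ ∧ (∀ e x, At e x → (addH g ψ e (e x)).PosDef) ∧
      (∀ x, ψ x ≤ 0) ∧ (∀ x, u x ≤ L / n * (-ψ x + n)) ∧
      INT.intX (fun e z => (g e z).det.re) ≤
        INT.intX (fun e z => (Real.exp (ψ (e.symm z)) +
          Real.exp n * (f (e.symm z) / L) ^ n) * (g e z).det.re) := by
  have hn' : (0 : ℝ) < n := by exact_mod_cast hn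
  set A : ℝ := L / n with hA
  have hA0 : 0 < A := by positivity
  have hAn : A * n = L := by rw [hA]; field_simp
  -- the right hand side of the Monge-Ampère equation
  set R : X → ℝ := fun x => 1 + (f x / L) ^ n * Real.exp (u x / A) with hR
  have hR1 : ∀ x, 1 ≤ R x := fun x => by
    have : 0 ≤ (f x / L) ^ n * Real.exp (u x / A) :=
      mul_nonneg (pow_nonneg (div_nonneg (hf0 x) hL.le) _) (Real.exp_pos _).le
    simp only [hR]; linarith
  have hRs : SmoothFn (n := n) R := by
    refine sm_add (smoothFn_const 1) (sm_mul ?_ (sm_exp ?_))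
    · exact sm_comp (φ := fun t => (t / L) ^ n) (fun x => by fun_prop) hf
    · exact sm_comp (φ := fun t => t / A) (fun x => by fun_prop) hu
  have hFs : SmoothFn (n := n) fun x => Real.log (R x) :=
    sm_log hRs fun x => lt_of_lt_of_le one_pos (hR1 x)
  obtain ⟨ψ, hψ, hpos, hma⟩ := hAY g hg (fun x => Real.log (R x)) hFs
  have hdg : ∀ e x, At e x → 0 < (g e (e x)).det.re := fun e x hx =>
    (Complex.lt_def.1 (hg.posDef e x hx).det_pos).1
  have hdp : ∀ e x, At e x → 0 < (addH g ψ e (e x)).det.re := fun e x hx =>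
    (Complex.lt_def.1 (hpos e x hx).det_pos).1
  have hratio : ∀ e x, At e x → (addH g ψ e (e x)).det.re =
      Real.exp (ψ x) * R x * (g e (e x)).det.re := by
    intro e x hx
    have h1 := hma e x hx
    have h2 : Real.log (addH g ψ e (e x)).det.re =
        ψ x + Real.log (R x) + Real.log (g e (e x)).det.re := by linarith
    rw [← Real.exp_log (hdp e x hx), h2, Real.exp_add, Real.exp_add,
      Real.exp_log (lt_of_lt_of_le one_pos (hR1 x)), Real.exp_log (hdg e x hx)]
  -- `ψ ≤ 0`
  have hψ0 : ∀ x, ψ x ≤ 0 := by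
    obtain ⟨x0, hx0⟩ := (INT.SmoothFn.continuous hψ).exists_forall_ge_of_hasCompactSupport
      (HasCompactSupport.of_compactSpace ψ)
    intro x
    refine (hx0 x).trans ?_
    set e := chartAt (Cm n) x0 with he
    have hx : At e x0 := at_chartAt x0
    have h1 := N.neg_cHess_posSemidef (sm_two hψ hx) (isLocalMax_symm hx0 hx)
    have h2 : (g e (e x0) - addH g ψ e (e x0)).PosSemidef := by
      have : g e (e x0) - addH g ψ e (e x0) = -cHess (fun z => ψ (e.symm z)) (e x0) := by
        unfold addH; abel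
      rw [this]; exact h1
    have h3 := N.det_re_le (hpos e x0 hx) h2
    rw [hratio e x0 hx] at h3
    have h4 : Real.exp (ψ x0) * R x0 ≤ 1 := by
      have := (mul_le_iff_le_one_left (hdg e x0 hx)).1 h3
      exact this
    have h5 : Real.exp (ψ x0) ≤ 1 := by
      have := mul_le_mul_of_nonneg_left (hR1 x0) (Real.exp_pos (ψ x0)).le
      linarith
    exact Real.exp_le_one_iff.1 h5
  -- `u + A ψ ≤ A n`
  have hkey : ∀ x, u x + A * ψ x ≤ L := by
    have hws : SmoothFn (n := n) fun x => u x + A * ψ x := sm_add hu (sm_const_mul A hψ)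
    obtain ⟨x1, hx1⟩ := (INT.SmoothFn.continuous hws).exists_forall_ge_of_hasCompactSupport
      (HasCompactSupport.of_compactSpace _)
    intro x
    refine (hx1 x).trans ?_
    by_contra hcon
    push Not at hcon
    set e := chartAt (Cm n) x1 with he
    have hx : At e x1 := at_chartAt x1
    have h1 : lapE g (fun x => u x + A * ψ x) e (e x1) ≤ 0 :=
      lapE_nonpos_of_max hg.toIsHermitian hws hx1 hx
    rw [lapE_add hu (sm_const_mul A hψ) hx, lapE_const_mul hψ A hx] at h1
    have h2 : u x1 - lapE g u e (e x1) = f x1 := heq x1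
    have h3 := det_le_lapE hn hg.toIsHermitian hx (hpos e x1 hx)
    have h4 : (addH g ψ e (e x1)).det.re / (g e (e x1)).det.re = Real.exp (ψ x1) * R x1 := by
      rw [hratio e x1 hx]
      field_simp [(hdg e x1 hx).ne']
    rw [h4] at h3
    have h5 : f x1 / L * Real.exp ((u x1 / A + ψ x1) / n) ≤
        (Real.exp (ψ x1) * R x1) ^ ((1 : ℝ) / n) := by
      have h6 : (f x1 / L * Real.exp ((u x1 / A + ψ x1) / n)) ^ n ≤ Real.exp (ψ x1) * R x1 := by
        have h7 : Real.exp ((u x1 / A + ψ x1) / n) ^ n = Real.exp (ψ x1) * Real.exp (u x1 / A) := by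
          rw [← Real.exp_nat_mul, ← Real.exp_add]
          congr 1; field_simp; ring
        rw [mul_pow, h7]
        simp only [hR]
        have := Real.exp_pos (ψ x1)
        nlinarith
      have h8 : 0 ≤ f x1 / L * Real.exp ((u x1 / A + ψ x1) / n) :=
        mul_nonneg (div_nonneg (hf0 x1) hL.le) (Real.exp_pos _).le
      calc f x1 / L * Real.exp ((u x1 / A + ψ x1) / n)
          = ((f x1 / L * Real.exp ((u x1 / A + ψ x1) / n)) ^ n) ^ ((1 : ℝ) / n) := by
            rw [one_div, Real.pow_rpow_inv_natCast h8 hn.ne']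
        _ ≤ _ := Real.rpow_le_rpow (pow_nonneg h8 _) h6 (by positivity)
    have h9 : L * (f x1 / L * Real.exp ((u x1 / A + ψ x1) / n)) ≤ L + A * lapE g ψ e (e x1) := by
      have h10 := mul_le_mul_of_nonneg_left h3 hA0.le
      have h11 := mul_le_mul_of_nonneg_left h5 hL.le
      have h12 : A * (n * (Real.exp (ψ x1) * R x1) ^ ((1 : ℝ) / n)) =
          L * (Real.exp (ψ x1) * R x1) ^ ((1 : ℝ) / n) := by rw [← hAn]; ring
      have h13 : A * (n + lapE g ψ e (e x1)) = L + A * lapE g ψ e (e x1) := by rw [← hAn]; ring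
      linarith
    have h14 : L * (f x1 / L * Real.exp ((u x1 / A + ψ x1) / n)) =
        f x1 * Real.exp ((u x1 / A + ψ x1) / n) := by field_simp
    have h15 : 0 ≤ (u x1 / A + ψ x1) / n := by
      have : 0 ≤ u x1 + A * ψ x1 := by linarith
      have h16 : u x1 / A + ψ x1 = (u x1 + A * ψ x1) / A := by field_simp
      rw [h16]; positivity
    have h17 : f x1 ≤ f x1 * Real.exp ((u x1 / A + ψ x1) / n) :=
      le_mul_of_one_le_right (hf0 x1) (Real.one_le_exp h15)
    have h18 : A * ψ x1 ≤ 0 := mul_nonpos_of_nonneg_of_nonpos hA0.le (hψ0 x1)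
    linarith
  refine ⟨ψ, hψ, hpos, hψ0, fun x => ?_, ?_⟩
  · have := hkey x
    have h1 : A * (-ψ x + n) = L - A * ψ x := by rw [← hAn]; ring
    rw [h1]; linarith
  · -- total mass
    have hcl := INT.IsKahler.isClosedForm hg
    have h1 := INT.intX_det_add_cHess hcl hψ
    rw [← h1]
    have hform : IsForm (addH g ψ) :=
      IsForm.add hg.change (isForm_cHess fun e x h => sm_two hψ h)
    have hd1 : INT.IsDensity fun e z => (addH g ψ e z).det.re :=
      INT.isDensity_det hform fun e x hx i j =>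
        (hg.smooth e x hx i j).add (contDiffAt_hess hψ hx i j)
    have hd0 : INT.IsDensity fun e z => (g e z).det.re :=
      INT.isDensity_det hg.change hg.smooth
    have hc : Continuous fun x => Real.exp (ψ x) + Real.exp n * (f x / L) ^ n := by
      have h2 := INT.SmoothFn.continuous hψ
      have h3 := INT.SmoothFn.continuous hf
      fun_prop
    refine INT.intX_mono hd1 (hd0.smul hc) fun e x hx => ?_
    show (addH g ψ e (e x)).det.re ≤ (Real.exp (ψ (e.symm (e x))) +
      Real.exp n * (f (e.symm (e x)) / L) ^ n) * (g e (e x)).det.re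
    rw [hx.left_inv, hratio e x hx]
    refine mul_le_mul_of_nonneg_right ?_ (hdg e x hx).le
    have h4 : Real.exp (ψ x) * Real.exp (u x / A) ≤ Real.exp n := by
      rw [← Real.exp_add]
      refine Real.exp_le_exp.2 ?_
      have := hkey x
      have h5 : ψ x + u x / A = (u x + A * ψ x) / A := by field_simp; ring
      rw [h5, div_le_iff₀ hA0]
      linarith
    have h6 : 0 ≤ (f x / L) ^ n := pow_nonneg (div_nonneg (hf0 x) hL.le) _
    have h7 := mul_le_mul_of_nonneg_left h4 h6
    simp only [hR]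
    nlinarith

end Vale.Agent.P272.K.AMP.ABP
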